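import Crest.Agent.X212.Loc8.Zl
import Crest.Agent.X212.Wal14.Defs

/-!
# Row 212, WALL (helper74): the bridge `ZP → ZL`
-/

set_option autoImplicit false
set_option linter.unusedSectionVars false
noncomputable section
open scoped Manifold ContDiff Topology InnerProductSpace
open MeasureTheory Set Function Filter Real

namespace Crest.Agent.X212.Zn74
open An An.Pre Map77 Sob92 Nd18 Cyf70 Dec35 Hm83 Iz83
open Gj67 (rho cd_rho)
open Rf65 (kk LZ)
open Inv14 (bo)
open Wal14 (Tz ZP drP)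
open Loc8 (rwd ZL)

section gen
variable {E : Type} [NormedAddCommGroup E] [NormedSpace ℝ E] [FiniteDimensional ℝ E]
  [MeasurableSpace E] [BorelSpace E]
  {HM : Type} [TopologicalSpace HM] {I : ModelWithCorners ℝ E HM} [I.Boundaryless]
  {M : Type} [TopologicalSpace M] [ChartedSpace HM M] [IsManifold I ∞ M] [MeasurableSpace M]
  [T2Space M] [BorelSpace M] [SecondCountableTopology M] {ι : Type} [Fintype ι]
  {V W : Type} [NormedAddCommGroup V] [InnerProductSpace ℝ V] [FiniteDimensional ℝ V]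
  [NormedAddCommGroup W] [InnerProductSpace ℝ W] [FiniteDimensional ℝ W]

theorem nrm0_pair (F : Fr I M ι) {u : M → V} {v : M → W} (hu : Continuous u) :
    F.nrm 0 (fun x => i1 V W (u x) + i2 V W (v x)) ≤ F.nrm 0 u + F.nrm 0 v := by
  have a := nrm_nonneg (F := F.toPre) 0 u
  have b := nrm_nonneg (F := F.toPre) 0 v
  refine nrm_le_of_sq (add_nonneg a b) ?_
  have e : N2 F.toPre 0 (fun x => i1 V W (u x) + i2 V W (v x)) =
      ∫ x, (‖u x‖ ^ 2 + ‖v x‖ ^ 2) ∂F.μ := integral_congr_ae (.of_forall fun x => by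
    simp only [← real_inner_self_eq_norm_sq]
    rw [inner2]; simp)
  have h : ∫ x, (‖u x‖ ^ 2 + ‖v x‖ ^ 2) ∂F.μ ≤ F.nrm 0 u ^ 2 + F.nrm 0 v ^ 2 := by
    by_cases k : Integrable (fun x => ‖u x‖ ^ 2 + ‖v x‖ ^ 2) F.μ
    · obtain ⟨k1, k2⟩ := (integrable_add_iff_of_nonneg (hu.norm.pow 2).aestronglyMeasurable
        (.of_forall fun x => sq_nonneg _) (.of_forall fun x => sq_nonneg ‖v x‖)).1 k
      rw [nrm_sq, nrm_sq]
      exact (integral_add k1 k2).le
    · rw [integral_undef k]; positivity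
  nlinarith [mul_nonneg a b]

end gen

variable {E3 : Type} [NormedAddCommGroup E3] [NormedSpace ℝ E3] [FiniteDimensional ℝ E3]
  [MeasurableSpace E3] [BorelSpace E3]
  {H3 : Type} [TopologicalSpace H3] {I3 : ModelWithCorners ℝ E3 H3} [I3.Boundaryless]
  {Y : Type} [TopologicalSpace Y] [ChartedSpace H3 Y] [IsManifold I3 ∞ Y] [T2Space Y]
  [MeasurableSpace Y] [BorelSpace Y] [SecondCountableTopology Y] [CompactSpace Y]
  {κ : Type} [Fintype κ] {lam : Type} [Fintype lam] {D : YD I3 Y κ lam} {β : YC Y κ lam}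
  {V : Type} [Fintype V] [DecidableEq V] {δ η : ℝ} {ν : V → κ → Y → ℝ} {ξ : Y → β.m.A}

theorem bo_eq : bo D β univ = mbd D.B (cy β).m := by
  simp only [bo, Wz78.ind, indicator_univ]
  rfl

theorem Tz_eq (hβ : Rdc90.Bs D β) (w : Cz β) (x : Y × ℝ) :
    Tz D β univ (fun t => η - δ * deriv rho t) w x =
      i1 _ _ (rwd D β (drP κ Y η δ) w x) + i2 _ _ (lin D.B D.Z (cy β) w x) := by
  have e : (cy β).Φ = 0 := funext fun x => hβ.zr x.1
  rw [Tz, bo_eq, rwd, Ie.sig_one (G := ⟨D.Z, ca D.a⟩), dO, lin, e, Fintype.sum_option]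
  simp only [drP, Option.elim, zero_smul, Finset.sum_const_zero, add_zero, Pi.zero_apply, smul_zero,
    map_add, map_smul]
  exact (congrArg (· + _) (op_pair _ _ _ w x)).trans (add_right_comm _ _ _)

/-- **the bridge** -/
theorem zl_of (hβ : Rdc90.Bs D β) (h : ZP D β δ η ν ξ)
    (hm : Continuous fun z : Y × ℝ => (.pi fun i => bm z.2 • innerSL ℝ (kk ν (some i) ξ z) :
      CL (Cv (cy β)) (V → ℝ))) :
    ZL D β δ (drP κ Y η δ) fun z => .pi fun i => bm z.2 • innerSL ℝ (kk ν (some i) ξ z) := by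
  obtain ⟨C, c0, h⟩ := h
  refine ⟨C, c0, fun w s hc t => (h w ⟨s, hc, bo_eq (D := D) (β := β) ▸ t⟩).trans
    (mul_le_mul_of_nonneg_left (add_le_add ?_ (le_of_eq (congrArg _ (funext fun i => ?_)))) c0)⟩
  · have b : Bs D.B ⟨D.Z, ca D.a⟩ (cy β) := bs_cy hβ.ok hβ.adm
    have c := cd_rho.continuous
    refine (congrArg (D.Z.nrm 0) (funext fun x => (congrArg (exp (-δ * rho x.2) • ·)
      (Tz_eq hβ w x)).trans ((smul_add _ _ _).trans (congrArg₂ (· + ·) (map_smul _ _ _).symm
        (map_smul _ _ _).symm)))).trans_le (nrm0_pair D.Z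
      (Continuous.smul (f := fun x : Y × ℝ => exp (-δ * rho x.2)) (by fun_prop) ?_))
    refine (fl_sig b 1 (.of_hcs s hc)).sm.continuous.add (continuous_finset_sum _ fun a _ => ?_)
    refine Continuous.smul (f := drP κ Y η δ a) ?_ ((Grp76.pj _ a ∘L fa : Cv (cy β) →L[ℝ] (cy β).m.A).continuous.comp
      s.continuous)
    have := deriv_rho.1.continuous
    cases a
    · exact continuous_const.sub (continuous_const.mul (this.comp continuous_snd))
    · exact continuous_const
  · have := D.Z.fin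
    exact ((ContinuousLinearMap.proj i : (V → ℝ) →L[ℝ] ℝ).integral_comp_comm
      ((hm.clm_apply s.continuous).integrable_of_hasCompactSupport
        (hc.mono fun x hx e => hx ((congrArg _ e).trans (map_zero _))))).trans rfl

end Crest.Agent.X212.Zn74
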